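import Vale.Agent.P076.H457.Ker
import Vale.Agent.P076.X.Spec

/-! # P076, block X: `StKer` (X7) -/

namespace Vale.Agent.P076.H457

open Real Complex MeasureTheory FourierTransform
open scoped ContDiff
open Vale.Agent.P076

noncomputable section

/-- combination of the two decays. -/
theorem J_bound (ψ : ℝ → ℂ) (hψ : ContDiff ℝ ∞ ψ) (hc : HasCompactSupport ψ) (N : ℕ) (A : ℝ) :
    ∃ C : ℝ, 0 ≤ C ∧ ∀ s η σ X : ℝ, 1 ≤ s → |σ| ≤ A →
      ‖J ψ s η σ X‖ * ((1 + |X|) ^ N * (1 + |η|) ^ N) ≤ C := by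
  obtain ⟨C1, hC10, hC1⟩ := J_eta ψ hψ.continuous hc (2 * N)
  obtain ⟨C2, hC20, hC2⟩ := J_X ψ hψ hc (2 * N) A
  refine ⟨Real.sqrt (C1 * C2), Real.sqrt_nonneg _, fun s η σ X hs hσ => ?_⟩
  apply Real.le_sqrt_of_sq_le
  have h1 := hC1 s η σ X hs
  have h2 := hC2 s η σ X hs hσ
  calc (‖J ψ s η σ X‖ * ((1 + |X|) ^ N * (1 + |η|) ^ N)) ^ 2
      = (‖J ψ s η σ X‖ * (1 + |η|) ^ (2 * N)) * (‖J ψ s η σ X‖ * (1 + |X|) ^ (2 * N)) := by
        rw [pow_mul' (1 + |η|) 2 N, pow_mul' (1 + |X|) 2 N]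
        ring
    _ ≤ C1 * C2 := by gcongr

/-- substitution. -/
theorem sol_eq (ψ : ℝ → ℂ) (s y η t₀ t x : ℝ) (hs : 0 < s) :
    X.sol (fun ξ => ψ ξ * X.pk s y η t₀ ξ) x t
      = (((2:ℝ) ^ (1/4 : ℝ) * Real.sqrt s * s⁻¹ : ℝ) : ℂ) *
        (X.ex (x * η - (t - t₀) * η ^ 2) *
        J ψ s η ((t - t₀) / s ^ 2) ((x - y - 2 * η * (t - t₀)) / s)) := by
  unfold X.sol X.pk J X.ex
  have h1 : ∀ F : ℝ → ℂ, ∫ ξ : ℝ, F ξ = (s⁻¹ : ℝ) • ∫ u : ℝ, F (η + u / s) := by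
    intro F
    have h2 : ∫ u : ℝ, F (η + u / s) = ∫ u : ℝ, F (u / s) := by
      have := integral_add_left_eq_self (μ := volume) (fun v : ℝ => F (v / s)) (s * η)
      rw [← this]
      congr 1
      ext u
      congr 1
      field_simp
    rw [h2, Measure.integral_comp_div F s, abs_of_pos hs, smul_smul, inv_mul_cancel₀ hs.ne', one_smul]
  rw [h1]
  rw [← integral_const_mul, ← integral_const_mul, ← integral_smul]
  refine integral_congr_ae (Filter.Eventually.of_forall fun u => ?_)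
  simp only [Complex.real_smul]
  have e1 : Real.exp (-π * s ^ 2 * (η + u / s - η) ^ 2) = Real.exp (-π * u ^ 2) := by
    congr 1
    field_simp
    ring
  rw [e1]
  have e2 : ((Real.exp (-π * u ^ 2) : ℝ) : ℂ) *
      (cexp (((2 * π * (t₀ * (η + u / s) ^ 2 - y * (η + u / s - η)) : ℝ) : ℂ) * I) *
       cexp (((2 * π * (x * (η + u / s) - t * (η + u / s) ^ 2) : ℝ) : ℂ) * I))
      = cexp (((2 * π * (x * η - (t - t₀) * η ^ 2) : ℝ) : ℂ) * I) *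
        cexp (-(π : ℂ) * (1 + 2 * I * (((t - t₀) / s ^ 2 : ℝ) : ℂ)) * u ^ 2
          + 2 * π * I * (((x - y - 2 * η * (t - t₀)) / s : ℝ) : ℂ) * u) := by
    rw [Complex.ofReal_exp, ← Complex.exp_add, ← Complex.exp_add, ← Complex.exp_add]
    congr 1
    have hs' : (s : ℂ) ≠ 0 := by exact_mod_cast hs.ne'
    push_cast
    field_simp
    ring
  push_cast at e2 ⊢
  linear_combination ((s : ℂ)⁻¹ * (((2:ℝ) ^ (1/4 : ℝ) : ℝ) : ℂ) * (Real.sqrt s : ℂ) *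
    ψ (η + u / s)) * e2

/-- **X7 (`StKer`).** -/
theorem stKer : X.StKer := by
  intro B hB ψ hψ
  set φ : ℝ → ℂ := fun ξ => (ψ ξ : ℂ) with hφ
  have hφ1 : ContDiff ℝ ∞ φ := Complex.ofRealCLM.contDiff.comp hψ.1
  have hφ2 : HasCompactSupport φ := hψ.2.comp_left (g := fun r : ℝ => (r : ℂ)) (by simp)
  obtain ⟨C, hC0, hC⟩ := J_bound φ hφ1 hφ2 4 5
  -- final constant
  refine ⟨(C + 1) * 9 ^ 4 * 2 * (B * π), by positivity, ?_⟩
  intro s hs y η t₀ t t' x ht ht'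
  have hs0 : 0 < s := by linarith
  have hB0 : 0 < B := by linarith
  have hsig : |(t' - t₀) / s ^ 2| ≤ 5 := by
    rw [abs_div, abs_of_pos (by positivity : (0:ℝ) < s ^ 2), div_le_iff₀ (by positivity)]
    have h1 : |t' - t₀| ≤ |t' - t| + |t - t₀| := abs_sub_le _ _ _
    nlinarith
  have hJ := hC s η ((t' - t₀) / s ^ 2) ((x - y - 2 * η * (t' - t₀)) / s) hs hsig
  set X0 : ℝ := (x - y - 2 * η * (t - t₀)) / s with hX0
  set X1 : ℝ := (x - y - 2 * η * (t' - t₀)) / s with hX1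
  have hX : 1 + |X0| ≤ 9 * ((1 + |X1|) * (1 + |η|)) := by
    have h1 : X0 = X1 + 2 * η * ((t' - t) / s) := by
      rw [hX0, hX1]; field_simp; ring
    have h2 : |(t' - t) / s| ≤ 4 := by
      rw [abs_div, abs_of_pos hs0, div_le_iff₀ hs0]; exact ht'
    have h3 : |X0| ≤ |X1| + 8 * |η| := by
      rw [h1]
      refine (abs_add_le _ _).trans ?_
      rw [abs_mul, abs_mul, abs_of_pos (by norm_num : (0:ℝ) < 2)]
      nlinarith [abs_nonneg η]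
    nlinarith [abs_nonneg X1, abs_nonneg η, mul_nonneg (abs_nonneg X1) (abs_nonneg η)]
  have hexn : ∀ z : ℝ, ‖X.ex z‖ = 1 := fun z => by
    unfold X.ex; exact Complex.norm_exp_ofReal_mul_I _
  have hnorm : ‖X.sol (fun ξ => ψ ξ * X.pk s y η t₀ ξ) x t'‖
      ≤ 2 * (Real.sqrt s * s⁻¹) * ‖J φ s η ((t' - t₀) / s ^ 2) X1‖ := by
    have := sol_eq φ s y η t₀ t' x hs0
    rw [show (fun ξ => (ψ ξ : ℂ) * X.pk s y η t₀ ξ) = fun ξ => φ ξ * X.pk s y η t₀ ξ from rfl, this,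
      norm_mul, norm_mul, hexn, one_mul, Complex.norm_real, Real.norm_of_nonneg (by positivity)]
    have h14 : (2:ℝ) ^ (1/4 : ℝ) ≤ 2 ^ (1:ℝ) := by
      apply Real.rpow_le_rpow_of_exponent_le <;> norm_num
    rw [Real.rpow_one] at h14
    rw [mul_assoc ((2:ℝ) ^ (1/4 : ℝ)) (Real.sqrt s) s⁻¹]
    gcongr
  -- lower bound of the weight
  have hW : (π * B * s)⁻¹ * 2 * ((1 + |X0|) ^ 4)⁻¹ ≤ X.W (B * s) (x - y - 2 * η * (t - t₀)) := by
    unfold X.W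
    have h1 : (1 + (x - y - 2 * η * (t - t₀)) ^ 2 / (B * s) ^ 2) ^ 2 ≤ (1 + |X0|) ^ 4 := by
      have h2 : (x - y - 2 * η * (t - t₀)) ^ 2 / (B * s) ^ 2 ≤ |X0| ^ 2 := by
        rw [sq_abs, hX0, div_pow]
        apply div_le_div_of_nonneg_left (by positivity) (by positivity)
        have : s ≤ B * s := by nlinarith
        gcongr
      have h3 : 1 + (x - y - 2 * η * (t - t₀)) ^ 2 / (B * s) ^ 2 ≤ (1 + |X0|) ^ 2 := by
        nlinarith [abs_nonneg X0]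
      calc _ ≤ ((1 + |X0|) ^ 2) ^ 2 := by gcongr
        _ = _ := by ring
    have h4 : ((1 + |X0|) ^ 4)⁻¹ ≤ ((1 + (x - y - 2 * η * (t - t₀)) ^ 2 / (B * s) ^ 2) ^ 2)⁻¹ := by
      gcongr
    calc _ = 2 / (π * (B * s)) * ((1 + |X0|) ^ 4)⁻¹ := by field_simp
      _ ≤ _ := by gcongr
  have hJ2 : ‖J φ s η ((t' - t₀) / s ^ 2) X1‖ ≤ (C + 1) * 9 ^ 4 * ((1 + |X0|) ^ 4)⁻¹ := by
    rw [← div_eq_mul_inv, le_div_iff₀ (by positivity)]
    calc ‖J φ s η ((t' - t₀) / s ^ 2) X1‖ * (1 + |X0|) ^ 4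
        ≤ ‖J φ s η ((t' - t₀) / s ^ 2) X1‖ * (9 * ((1 + |X1|) * (1 + |η|))) ^ 4 := by gcongr
      _ = (‖J φ s η ((t' - t₀) / s ^ 2) X1‖ * ((1 + |X1|) ^ 4 * (1 + |η|) ^ 4)) * 9 ^ 4 := by ring
      _ ≤ C * 9 ^ 4 := by gcongr
      _ ≤ (C + 1) * 9 ^ 4 := by nlinarith
  have hsq : Real.sqrt s * s⁻¹ = Real.sqrt s * (B * π) * (π * B * s)⁻¹ := by
    field_simp
  calc _ ≤ 2 * (Real.sqrt s * s⁻¹) * ‖J φ s η ((t' - t₀) / s ^ 2) X1‖ := hnorm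
    _ ≤ 2 * (Real.sqrt s * s⁻¹) * ((C + 1) * 9 ^ 4 * ((1 + |X0|) ^ 4)⁻¹) := by gcongr
    _ = ((C + 1) * 9 ^ 4 * (B * π)) * Real.sqrt s * ((π * B * s)⁻¹ * 2 * ((1 + |X0|) ^ 4)⁻¹) := by
        rw [hsq]; ring
    _ ≤ ((C + 1) * 9 ^ 4 * (B * π)) * Real.sqrt s * X.W (B * s) (x - y - 2 * η * (t - t₀)) := by
        gcongr
    _ ≤ ((C + 1) * 9 ^ 4 * 2 * (B * π)) * Real.sqrt s * X.W (B * s) (x - y - 2 * η * (t - t₀)) := by
        have hW0 : 0 ≤ X.W (B * s) (x - y - 2 * η * (t - t₀)) := le_trans (by positivity) hW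
        have : (C + 1) * 9 ^ 4 * (B * π) ≤ (C + 1) * 9 ^ 4 * 2 * (B * π) := by
          have : 0 ≤ (C + 1) * 9 ^ 4 * (B * π) := by positivity
          linarith
        gcongr

end

end Vale.Agent.P076.H457
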