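import Mathlib

/-! # P076, block X.KER: the kernel lemma of #5061 (3)

`psi(D) e^{i tau D} phi_T` for a smooth compactly supported multiplier `psi` and a Gaussian wave
packet `phi_T` of width `s >= 1`: decay `(1+|x-y-2 eta tau|/s)^{-N}` for every frequency `eta`. -/

namespace Vale.Agent.P076.H457

open Real Complex MeasureTheory FourierTransform
open scoped ContDiff

noncomputable section

/-- `(1+|Z|)^M * exp(-c Z^2)` is bounded. -/
theorem pow_mul_gauss_le (M : ℕ) {c : ℝ} (hc : 0 < c) :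
    ∃ C : ℝ, 0 ≤ C ∧ ∀ Z : ℝ, (1 + |Z|) ^ M * Real.exp (-(c * Z ^ 2)) ≤ C := by
  refine ⟨M.factorial * Real.exp (1 + 1 / (4 * c)), by positivity, fun Z => ?_⟩
  have h1 : (1 + |Z|) ^ M ≤ M.factorial * Real.exp (1 + |Z|) := by
    have := Real.pow_div_factorial_le_exp (x := 1 + |Z|) (by positivity) M
    rw [div_le_iff₀ (by positivity)] at this
    linarith [mul_comm (Real.exp (1 + |Z|)) (M.factorial : ℝ)]
  calc (1 + |Z|) ^ M * Real.exp (-(c * Z ^ 2))
      ≤ (M.factorial * Real.exp (1 + |Z|)) * Real.exp (-(c * Z ^ 2)) := by gcongr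
    _ = M.factorial * Real.exp (1 + |Z| - c * Z ^ 2) := by
        rw [mul_assoc, ← Real.exp_add]; ring_nf
    _ ≤ M.factorial * Real.exp (1 + 1 / (4 * c)) := by
        gcongr
        have : |Z| - c * Z ^ 2 ≤ 1 / (4 * c) := by
          rw [← sq_abs Z]
          have h2 : 0 ≤ c * (|Z| - 1 / (2 * c)) ^ 2 := by positivity
          have h3 : c * (|Z| - 1 / (2 * c)) ^ 2 = c * |Z| ^ 2 - |Z| + 1 / (4 * c) := by
            field_simp; ring
          linarith
        linarith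

/-- The rescaled oscillatory integral. -/
def J (ψ : ℝ → ℂ) (s η σ X : ℝ) : ℂ :=
  ∫ u : ℝ, ψ (η + u / s) * cexp (-(π : ℂ) * (1 + 2 * I * σ) * u ^ 2 + 2 * π * I * X * u)

theorem norm_gauss (σ X u : ℝ) :
    ‖cexp (-(π : ℂ) * (1 + 2 * I * σ) * u ^ 2 + 2 * π * I * X * u)‖ = Real.exp (-(π * u ^ 2)) := by
  rw [Complex.norm_exp]
  congr 1
  have : (-(π : ℂ) * (1 + 2 * I * σ) * u ^ 2 + 2 * π * I * X * u)
      = ((-(π * u ^ 2) : ℝ) : ℂ) + ((-(2 * π * σ * u ^ 2) + 2 * π * X * u : ℝ) : ℂ) * I := by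
    push_cast; ring
  rw [this, Complex.add_re, Complex.ofReal_re, Complex.re_ofReal_mul]
  simp

theorem integrable_gauss' (M : ℕ) :
    Integrable (fun u : ℝ => (1 + |u|) ^ M * Real.exp (-(π * u ^ 2))) := by
  obtain ⟨C, hC0, hC⟩ := pow_mul_gauss_le M (c := π / 2) (by positivity)
  have hg : Integrable (fun u : ℝ => C * Real.exp (-(π / 2) * u ^ 2)) :=
    (integrable_exp_neg_mul_sq (b := π / 2) (by positivity)).const_mul C
  refine hg.mono' (by fun_prop) (Filter.Eventually.of_forall fun u => ?_)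
  rw [Real.norm_of_nonneg (by positivity)]
  have : Real.exp (-(π * u ^ 2)) = Real.exp (-(π / 2 * u ^ 2)) * Real.exp (-(π / 2) * u ^ 2) := by
    rw [← Real.exp_add]; ring_nf
  rw [this, ← mul_assoc]
  gcongr
  exact hC u

/-- (b) trivial bound: decay in `eta`. -/
theorem J_eta (ψ : ℝ → ℂ) (hψ : Continuous ψ) (hc : HasCompactSupport ψ) (M : ℕ) :
    ∃ C : ℝ, 0 ≤ C ∧ ∀ s η σ X : ℝ, 1 ≤ s → ‖J ψ s η σ X‖ * (1 + |η|) ^ M ≤ C := by
  obtain ⟨B, hB⟩ := hψ.bounded_above_of_compact_support hc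
  obtain ⟨R, hR0, hR⟩ : ∃ R : ℝ, 0 ≤ R ∧ ∀ ξ, ψ ξ ≠ 0 → |ξ| ≤ R := by
    obtain ⟨R, hR⟩ := hc.isCompact.isBounded.subset_closedBall (0 : ℝ)
    refine ⟨max R 0, le_max_right _ _, fun ξ hξ => ?_⟩
    have := hR (subset_tsupport _ (Function.mem_support.2 hξ))
    rw [Metric.mem_closedBall, dist_zero_right, Real.norm_eq_abs] at this
    exact this.trans (le_max_left _ _)
  have hB0 : 0 ≤ B := (norm_nonneg _).trans (hB 0)
  refine ⟨∫ u : ℝ, (B * (1 + R) ^ M) * ((1 + |u|) ^ M * Real.exp (-(π * u ^ 2))), ?_, ?_⟩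
  · exact integral_nonneg fun u => by positivity
  intro s η σ X hs
  have hs0 : 0 < s := by linarith
  rw [J, mul_comm, ← abs_of_nonneg (a := (1 + |η|) ^ M) (by positivity), ← Real.norm_eq_abs,
    ← norm_smul, ← integral_smul]
  refine (norm_integral_le_integral_norm _).trans ?_
  refine integral_mono_of_nonneg (Filter.Eventually.of_forall fun u => norm_nonneg _)
    ((integrable_gauss' M).const_mul _) (Filter.Eventually.of_forall fun u => ?_)
  simp only [norm_smul, norm_mul, norm_gauss]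
  by_cases h0 : ψ (η + u / s) = 0
  · rw [h0]; simp; positivity
  have h1 := hR _ h0
  have h2 : |η| ≤ R + |u| := by
    have h3 : |u / s| ≤ |u| := by
      rw [abs_div, abs_of_pos hs0]
      exact div_le_self (abs_nonneg _) hs
    have h4 : |η| ≤ |η + u / s| + |u / s| := by
      have := abs_sub (η + u / s) (u / s)
      simpa using this
    linarith
  have h5 : (1 + |η|) ^ M ≤ ((1 + R) * (1 + |u|)) ^ M := by
    gcongr
    nlinarith [abs_nonneg u]
  rw [Real.norm_of_nonneg (by positivity)]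
  calc (1 + |η|) ^ M * (‖ψ (η + u / s)‖ * Real.exp (-(π * u ^ 2)))
      ≤ ((1 + R) * (1 + |u|)) ^ M * (B * Real.exp (-(π * u ^ 2))) := by
        gcongr
        exact hB _
    _ = _ := by rw [mul_pow]; ring

/-- The Gaussian inner integral. -/
theorem norm_inner (σ Z : ℝ) :
    ‖∫ u : ℝ, cexp (-(π : ℂ) * (1 + 2 * I * σ) * u ^ 2 + 2 * π * I * Z * u)‖
      ≤ Real.exp (-(π / (1 + 4 * σ ^ 2) * Z ^ 2)) := by
  have hb : (-(π : ℂ) * (1 + 2 * I * σ)).re < 0 := by
    have : (-(π : ℂ) * (1 + 2 * I * σ)) = ((-π : ℝ) : ℂ) + ((-(2 * π * σ) : ℝ) : ℂ) * I := by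
      push_cast; ring
    rw [this, Complex.add_re, Complex.ofReal_re, Complex.re_ofReal_mul]
    simp [pi_pos]
  have h := integral_cexp_quadratic hb (2 * π * I * Z) 0
  simp only [add_zero] at h
  rw [h, norm_mul]
  have hw : (1 + 2 * I * (σ : ℂ)) ≠ 0 := by
    intro h0
    have := congrArg Complex.re h0
    simp at this
  have hn : Complex.normSq (1 + 2 * I * (σ : ℂ)) = 1 + 4 * σ ^ 2 := by
    rw [Complex.normSq_apply]
    simp
    ring
  have e1 : (π : ℂ) / -(-(π : ℂ) * (1 + 2 * I * σ)) = (1 + 2 * I * (σ : ℂ))⁻¹ := by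
    have : (π : ℂ) ≠ 0 := by exact_mod_cast pi_ne_zero
    field_simp
  have e2 : (0 : ℂ) - (2 * π * I * Z) ^ 2 / (4 * (-(π : ℂ) * (1 + 2 * I * σ)))
      = ((-(π * Z ^ 2) : ℝ) : ℂ) * (1 + 2 * I * (σ : ℂ))⁻¹ := by
    have : (π : ℂ) ≠ 0 := by exact_mod_cast pi_ne_zero
    field_simp
    ring_nf
    rw [Complex.I_sq]
    push_cast
    ring
  rw [e1, e2]
  have h1 : ‖((1 + 2 * I * (σ : ℂ))⁻¹) ^ (1 / 2 : ℂ)‖ ≤ 1 := by
    rw [Complex.norm_cpow_of_ne_zero (inv_ne_zero hw)]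
    have : ((1 : ℂ) / 2).im = 0 := by simp
    rw [this, mul_zero, Real.exp_zero, div_one]
    have h2 : ((1 : ℂ) / 2).re = 1 / 2 := by simp
    rw [h2]
    apply Real.rpow_le_one (norm_nonneg _) _ (by norm_num)
    rw [norm_inv]
    apply inv_le_one_of_one_le₀
    rw [← Real.sqrt_one, Complex.norm_def, hn]
    apply Real.sqrt_le_sqrt
    nlinarith [sq_nonneg σ]
  have h2 : ‖cexp (((-(π * Z ^ 2) : ℝ) : ℂ) * (1 + 2 * I * (σ : ℂ))⁻¹)‖
      = Real.exp (-(π / (1 + 4 * σ ^ 2) * Z ^ 2)) := by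
    rw [Complex.norm_exp, Complex.re_ofReal_mul, Complex.inv_re, hn]
    congr 1
    simp
    ring
  rw [h2]
  calc _ ≤ 1 * Real.exp (-(π / (1 + 4 * σ ^ 2) * Z ^ 2)) := by gcongr
    _ = _ := one_mul _

/-- (a) decay in `X`. -/
theorem J_X (ψ : ℝ → ℂ) (hψ : ContDiff ℝ ∞ ψ) (hc : HasCompactSupport ψ) (M : ℕ) (A : ℝ) :
    ∃ C : ℝ, 0 ≤ C ∧ ∀ s η σ X : ℝ, 1 ≤ s → |σ| ≤ A → ‖J ψ s η σ X‖ * (1 + |X|) ^ M ≤ C := by
  set f : SchwartzMap ℝ ℂ := hc.toSchwartzMap hψ with hf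
  have hfψ : (f : ℝ → ℂ) = ψ := by
    ext x; rfl
  set g : ℝ → ℂ := fun r => (𝓕 f : SchwartzMap ℝ ℂ) r with hg
  have hgc : Continuous g := (𝓕 f : SchwartzMap ℝ ℂ).continuous
  have hgi : Integrable g := (𝓕 f : SchwartzMap ℝ ℂ).integrable
  -- weighted integrability
  have hw : Integrable (fun r : ℝ => ‖g r‖ * (1 + |r|) ^ M) := by
    have h0 := (𝓕 f : SchwartzMap ℝ ℂ).integrable_pow_mul (volume : Measure ℝ) 0
    have hM := (𝓕 f : SchwartzMap ℝ ℂ).integrable_pow_mul (volume : Measure ℝ) M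
    have hs : Integrable (fun r : ℝ => (2:ℝ) ^ M * (‖r‖ ^ 0 * ‖g r‖ + ‖r‖ ^ M * ‖g r‖)) :=
      (h0.add hM).const_mul _
    refine hs.mono' (by fun_prop) (Filter.Eventually.of_forall fun r => ?_)
    rw [Real.norm_of_nonneg (by positivity), pow_zero, one_mul, Real.norm_eq_abs]
    have : (1 + |r|) ^ M ≤ 2 ^ M * (1 + |r| ^ M) := by
      rcases le_total |r| 1 with h | h
      · calc (1 + |r|) ^ M ≤ (1 + 1) ^ M := by gcongr
          _ = 2 ^ M * 1 := by norm_num
          _ ≤ 2 ^ M * (1 + |r| ^ M) := by gcongr; simp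
      · calc (1 + |r|) ^ M ≤ (|r| + |r|) ^ M := by gcongr
          _ = 2 ^ M * |r| ^ M := by rw [← two_mul, mul_pow]
          _ ≤ 2 ^ M * (1 + |r| ^ M) := by gcongr; simp
    calc ‖g r‖ * (1 + |r|) ^ M ≤ ‖g r‖ * (2 ^ M * (1 + |r| ^ M)) := by gcongr
      _ = _ := by ring
  obtain ⟨C1, hC10, hC1⟩ := pow_mul_gauss_le M (c := π / (1 + 4 * A ^ 2)) (by positivity)
  refine ⟨∫ r : ℝ, C1 * (‖g r‖ * (1 + |r|) ^ M), integral_nonneg fun r => by positivity, ?_⟩
  intro s η σ X hs hσ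
  have hs0 : 0 < s := by linarith
  have hσ2 : σ ^ 2 ≤ A ^ 2 := sq_le_sq' (by linarith [neg_abs_le σ]) ((le_abs_self σ).trans hσ)
  -- inversion
  have hinv : ∀ ξ : ℝ, ψ ξ = ∫ r : ℝ, cexp (2 * π * I * (r * ξ)) * g r := by
    intro ξ
    have h1 : 𝓕⁻ (𝓕 f : SchwartzMap ℝ ℂ) = f := FourierTransform.fourierInv_fourier_eq f
    have h2 : (𝓕⁻ (𝓕 f : SchwartzMap ℝ ℂ) : SchwartzMap ℝ ℂ) ξ = ψ ξ := by
      rw [h1]; exact congrFun hfψ ξ
    rw [← h2, SchwartzMap.fourierInv_coe, Real.fourierInv_eq']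
    refine integral_congr_ae (Filter.Eventually.of_forall fun r => ?_)
    simp only [smul_eq_mul, hg]
    congr 2
    simp only [RCLike.inner_apply, conj_trivial]
    push_cast; ring
  -- Fubini
  have hJ : J ψ s η σ X = ∫ r : ℝ, (cexp (2 * π * I * (r * η)) * g r) *
      ∫ u : ℝ, cexp (-(π : ℂ) * (1 + 2 * I * σ) * u ^ 2 + 2 * π * I * ((X + r / s : ℝ) : ℂ) * u) := by
    have e1 : J ψ s η σ X = ∫ u : ℝ, ∫ r : ℝ, (cexp (2 * π * I * (r * η)) * g r) *
        cexp (-(π : ℂ) * (1 + 2 * I * σ) * u ^ 2 + 2 * π * I * ((X + r / s : ℝ) : ℂ) * u) := by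
      rw [J]
      refine integral_congr_ae (Filter.Eventually.of_forall fun u => ?_)
      simp only
      rw [hinv, ← integral_mul_const]
      refine integral_congr_ae (Filter.Eventually.of_forall fun r => ?_)
      simp only
      have : cexp (2 * π * I * (r * ((η + u / s : ℝ) : ℂ))) *
          cexp (-(π : ℂ) * (1 + 2 * I * σ) * u ^ 2 + 2 * π * I * X * u)
          = cexp (2 * π * I * (r * η)) *
          cexp (-(π : ℂ) * (1 + 2 * I * σ) * u ^ 2 + 2 * π * I * ((X + r / s : ℝ) : ℂ) * u) := by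
        rw [← Complex.exp_add, ← Complex.exp_add]
        congr 1
        push_cast
        ring
      calc cexp (2 * π * I * (r * ((η + u / s : ℝ) : ℂ))) * g r *
          cexp (-(π : ℂ) * (1 + 2 * I * σ) * u ^ 2 + 2 * π * I * X * u)
          = (cexp (2 * π * I * (r * ((η + u / s : ℝ) : ℂ))) *
          cexp (-(π : ℂ) * (1 + 2 * I * σ) * u ^ 2 + 2 * π * I * X * u)) * g r := by ring
        _ = _ := by rw [this]; ring
    rw [e1, integral_integral_swap]
    · refine integral_congr_ae (Filter.Eventually.of_forall fun r => ?_)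
      simp only
      rw [← integral_const_mul]
    · have hint : Integrable (fun p : ℝ × ℝ => Real.exp (-(π * p.1 ^ 2)) * ‖g p.2‖)
          (volume.prod volume) := by
        have h1 : Integrable (fun u : ℝ => Real.exp (-(π * u ^ 2))) := by
          simpa using integrable_gauss' 0
        exact h1.mul_prod hgi.norm
      refine hint.mono' ?_ (Filter.Eventually.of_forall fun p => ?_)
      · apply Continuous.aestronglyMeasurable
        unfold Function.uncurry
        fun_prop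
      · simp only [Function.uncurry]
        rw [norm_mul, norm_mul, norm_gauss]
        have : ‖cexp (2 * π * I * (p.2 * η))‖ = 1 := by
          rw [Complex.norm_exp]
          have : (2 * π * I * ((p.2 : ℂ) * η)).re = 0 := by
            have h : (2 * π * I * ((p.2 : ℂ) * η)) = ((2 * π * (p.2 * η) : ℝ) : ℂ) * I := by
              push_cast; ring
            rw [h, Complex.re_ofReal_mul]; simp
          rw [this, Real.exp_zero]
        rw [this]
        apply le_of_eq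
        ring
  rw [hJ]
  have hkey : ∀ r : ℝ, ‖(cexp (2 * π * I * (r * η)) * g r) *
      ∫ u : ℝ, cexp (-(π : ℂ) * (1 + 2 * I * σ) * u ^ 2 + 2 * π * I * ((X + r / s : ℝ) : ℂ) * u)‖
      ≤ ‖g r‖ * Real.exp (-(π / (1 + 4 * A ^ 2) * (X + r / s) ^ 2)) := by
    intro r
    rw [norm_mul, norm_mul]
    have : ‖cexp (2 * π * I * (r * η))‖ = 1 := by
      rw [Complex.norm_exp]
      have : (2 * π * I * ((r : ℂ) * η)).re = 0 := by
        have h : (2 * π * I * ((r : ℂ) * η)) = ((2 * π * (r * η) : ℝ) : ℂ) * I := by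
          push_cast; ring
        rw [h, Complex.re_ofReal_mul]; simp
      rw [this, Real.exp_zero]
    rw [this, one_mul]
    refine mul_le_mul_of_nonneg_left ((norm_inner σ (X + r / s)).trans ?_) (norm_nonneg _)
    apply Real.exp_le_exp.2
    apply neg_le_neg
    apply mul_le_mul_of_nonneg_right _ (sq_nonneg _)
    apply div_le_div_of_nonneg_left pi_pos.le (by positivity)
    linarith
  have hpt : ∀ r : ℝ, (‖g r‖ * Real.exp (-(π / (1 + 4 * A ^ 2) * (X + r / s) ^ 2)))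
      * (1 + |X|) ^ M ≤ C1 * (‖g r‖ * (1 + |r|) ^ M) := by
    intro r
    have h1 : (1 + |X|) ≤ (1 + |X + r / s|) * (1 + |r|) := by
      have h3 : |r / s| ≤ |r| := by
        rw [abs_div, abs_of_pos hs0]
        exact div_le_self (abs_nonneg _) hs
      have h4 : |X| ≤ |X + r / s| + |r / s| := by
        have := abs_sub (X + r / s) (r / s)
        simpa using this
      nlinarith [abs_nonneg (X + r / s), abs_nonneg r,
        mul_nonneg (abs_nonneg (X + r / s)) (abs_nonneg r)]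
    calc (‖g r‖ * Real.exp (-(π / (1 + 4 * A ^ 2) * (X + r / s) ^ 2))) * (1 + |X|) ^ M
        ≤ (‖g r‖ * Real.exp (-(π / (1 + 4 * A ^ 2) * (X + r / s) ^ 2))) *
          ((1 + |X + r / s|) * (1 + |r|)) ^ M := by gcongr
      _ = ((1 + |X + r / s|) ^ M * Real.exp (-(π / (1 + 4 * A ^ 2) * (X + r / s) ^ 2))) *
          (‖g r‖ * (1 + |r|) ^ M) := by rw [mul_pow]; ring
      _ ≤ C1 * (‖g r‖ * (1 + |r|) ^ M) := by
          gcongr
          exact hC1 _
  have hgi2 : Integrable (fun r : ℝ =>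
      ‖g r‖ * Real.exp (-(π / (1 + 4 * A ^ 2) * (X + r / s) ^ 2))) := by
    refine hgi.norm.mono' (by fun_prop) (Filter.Eventually.of_forall fun r => ?_)
    rw [Real.norm_of_nonneg (by positivity)]
    have : Real.exp (-(π / (1 + 4 * A ^ 2) * (X + r / s) ^ 2)) ≤ 1 := by
      apply Real.exp_le_one_iff.2
      have : 0 ≤ π / (1 + 4 * A ^ 2) * (X + r / s) ^ 2 := by positivity
      linarith
    calc _ ≤ ‖g r‖ * 1 := by gcongr
      _ = _ := mul_one _
  calc _ ≤ (∫ r : ℝ, ‖g r‖ * Real.exp (-(π / (1 + 4 * A ^ 2) * (X + r / s) ^ 2)))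
        * (1 + |X|) ^ M := by
        gcongr
        exact norm_integral_le_of_norm_le hgi2 (Filter.Eventually.of_forall hkey)
    _ = ∫ r : ℝ, (‖g r‖ * Real.exp (-(π / (1 + 4 * A ^ 2) * (X + r / s) ^ 2)))
        * (1 + |X|) ^ M := (integral_mul_const _ _).symm
    _ ≤ ∫ r : ℝ, C1 * (‖g r‖ * (1 + |r|) ^ M) :=
        integral_mono (hgi2.mul_const _) (hw.const_mul _) hpt

end

end Vale.Agent.P076.H457
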