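import Vale.Agent.P076.X.Basic
import Vale.Agent.P076.H523.Spec

/-! # P076 / H457 : [TAY] of TS.SLAB (helper457)

Taylor expansion in `(x 1, t)` on a block `S × S²`: `StTAY` of `H523/Spec.lean`. -/

set_option linter.all false

open MeasureTheory Complex

namespace Vale.Agent.P076.H457

open X (ex)
open H23 (Str)

/-- the point `(x, y)` -/
noncomputable def v2 (x y : ℝ) : E 2 := WithLp.toLp 2 ![x, y]

@[simp] theorem v2_zero (x y : ℝ) : v2 x y 0 = x := rfl
@[simp] theorem v2_one (x y : ℝ) : v2 x y 1 = y := rfl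

theorem v2_eta (z : E 2) : v2 (z 0) (z 1) = z := by
  ext i; fin_cases i <;> rfl

/-- `ℝ × ℝ ≃ E 2` -/
noncomputable def me2 : ℝ × ℝ ≃ᵐ E 2 :=
  (MeasurableEquiv.finTwoArrow (α := ℝ)).symm.trans (MeasurableEquiv.toLp 2 (Fin 2 → ℝ))

theorem me2_apply (p : ℝ × ℝ) : me2 p = v2 p.1 p.2 := by
  ext i; fin_cases i <;> rfl

theorem mp_me2 : MeasurePreserving me2 (volume : Measure (ℝ × ℝ)) (volume : Measure (E 2)) :=
  (PiLp.volume_preserving_toLp (Fin 2)).comp ((volume_preserving_finTwoArrow ℝ).symm _)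

theorem measurable_v2 : Measurable (fun p : ℝ × ℝ => v2 p.1 p.2) := by
  have h := me2.measurable
  have e : (fun p : ℝ × ℝ => v2 p.1 p.2) = me2 := by ext1 p; exact (me2_apply p).symm
  rw [e]; exact h

theorem int_v2 {F : Type*} [NormedAddCommGroup F] [NormedSpace ℝ F] (f : E 2 → F) :
    ∫ η, f η = ∫ p : ℝ × ℝ, f (v2 p.1 p.2) := by
  rw [← mp_me2.integral_comp me2.measurableEmbedding]
  simp_rw [me2_apply]

theorem integrable_v2 {F : Type*} [NormedAddCommGroup F] (f : E 2 → F) :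
    Integrable f ↔ Integrable (fun p : ℝ × ℝ => f (v2 p.1 p.2)) := by
  rw [← mp_me2.integrable_comp_emb me2.measurableEmbedding]
  have : (f ∘ me2) = fun p : ℝ × ℝ => f (v2 p.1 p.2) := by
    ext p; simp [me2_apply]
  rw [this]

/-- the evolution as an integral over `ℝ × ℝ` -/
theorem evo_eq (G : E 2 → ℂ) (x : E 2) (t : ℝ) : evo G x t 0 =
    ∫ p : ℝ × ℝ, ex (x 0 * p.1 - t * p.1 ^ 2) * (ex (x 1 * p.2 - t * p.2 ^ 2) * G (v2 p.1 p.2)) := by
  unfold evo
  rw [int_v2]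
  congr 1; ext p
  have h1 : inner ℝ x (v2 p.1 p.2) = x 0 * p.1 + x 1 * p.2 := by
    simp [PiLp.inner_apply, mul_comm]
  have h2 : ‖v2 p.1 p.2‖ ^ 2 = p.1 ^ 2 + p.2 ^ 2 := by
    rw [EuclideanSpace.norm_sq_eq]; simp
  rw [h1, h2, ← mul_assoc, ← X.ex_add]
  congr 1
  unfold ex
  congr 1
  push_cast
  ring

/-- a bounded measurable function supported in a box is integrable -/
theorem int_box {w M : ℝ} {F : ℝ × ℝ → ℂ} (hm : Measurable F) (hb : ∀ p, ‖F p‖ ≤ M)
    (hs : ∀ p, F p ≠ 0 → |p.1| ≤ 1 ∧ |p.2| ≤ w) : Integrable F := by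
  have h1 : IntegrableOn (fun _ : ℝ × ℝ => M) (Set.Icc (-1) 1 ×ˢ Set.Icc (-w) w) := by
    refine (integrableOn_const_iff).2 (Or.inr ?_)
    rw [Measure.volume_eq_prod, Measure.prod_prod]
    exact ENNReal.mul_lt_top (by simp) (by simp)
  refine (h1.integrable_indicator (by measurability)).mono' hm.aestronglyMeasurable
    (Filter.Eventually.of_forall fun p => ?_)
  by_cases hp : F p = 0
  · rw [hp, norm_zero]
    refine Set.indicator_nonneg (fun _ _ => ?_) _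
    exact (norm_nonneg _).trans (hb p)
  · obtain ⟨h2, h3⟩ := hs p hp
    rw [Set.indicator_of_mem]
    · exact hb p
    · rw [abs_le] at h2 h3
      exact ⟨⟨h2.1, h2.2⟩, ⟨h3.1, h3.2⟩⟩

/-- the two dimensional integrand of a slice -/
noncomputable def Phi (S y τ x t : ℝ) (j : ℕ) (G : E 2 → ℂ) (p : ℝ × ℝ) : ℂ :=
  ex (x * p.1 - t * p.1 ^ 2) * (ex (y * p.2 - τ * p.2 ^ 2) * ((((64 * S * p.2) ^ j : ℝ) : ℂ) * G (v2 p.1 p.2)))

theorem str_supp {w : ℝ} {G : E 2 → ℂ} (hG : Str w G) (p : ℝ × ℝ) (h : G (v2 p.1 p.2) ≠ 0) : |p.1| ≤ 1 ∧ |p.2| ≤ w :=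
  ⟨by simpa using hG.s0 _ h, by simpa using hG.s1 _ h⟩

theorem small_v {S w ζ : ℝ} (hS : 0 < S) (hw : S * w ≤ 1 / 128) (h : |ζ| ≤ w) : |64 * S * ζ| ≤ 1 / 2 := by
  rw [abs_mul, abs_of_pos (by positivity : (0:ℝ) < 64 * S)]
  nlinarith [mul_le_mul_of_nonneg_left h hS.le]

theorem norm_Phi_le {S w y τ x t : ℝ} {j : ℕ} {G : E 2 → ℂ} (hS : 0 < S) (hw : S * w ≤ 1 / 128) (hG : Str w G)
    (p : ℝ × ℝ) : ‖Phi S y τ x t j G p‖ ≤ (1/2) ^ j * ‖G (v2 p.1 p.2)‖ := by
  unfold Phi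
  rw [norm_mul, norm_mul, norm_mul, X.norm_ex, X.norm_ex, one_mul, one_mul, Complex.norm_real, norm_pow]
  by_cases h : G (v2 p.1 p.2) = 0
  · simp [h]
  · have := small_v hS hw (str_supp hG p h).2
    rw [Real.norm_eq_abs]
    gcongr

theorem measurable_Phi {S y τ x t : ℝ} {j : ℕ} {G : E 2 → ℂ} (hG : Measurable G) :
    Measurable (Phi S y τ x t j G) := by
  unfold Phi
  have h1 := X.measurable_ex
  have h2 : Measurable (fun p : ℝ × ℝ => G (v2 p.1 p.2)) := hG.comp measurable_v2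
  refine Measurable.mul (by fun_prop) (Measurable.mul (by fun_prop) (Measurable.mul (by fun_prop) h2))

theorem integrable_Phi {S w y τ x t : ℝ} {j : ℕ} {G : E 2 → ℂ} (hS : 0 < S) (hw : S * w ≤ 1 / 128) (hG : Str w G) :
    Integrable (Phi S y τ x t j G) := by
  obtain ⟨b, hb⟩ := hG.bdd
  refine int_box (w := w) (M := (1/2) ^ j * b) (measurable_Phi hG.meas) (fun p => ?_) (fun p hp => ?_)
  · exact (norm_Phi_le hS hw hG p).trans (by gcongr; exact hb _)
  · refine str_supp hG p fun h => hp ?_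
    unfold Phi
    rw [h]; simp

/-- a slice as a two dimensional integral -/
theorem sol_sl {S w y τ x t : ℝ} {j : ℕ} {G : E 2 → ℂ} (hS : 0 < S) (hw : S * w ≤ 1 / 128) (hG : Str w G) :
    X.sol (H523.sl S j y τ G) x (t - τ) = ∫ p, Phi S y τ x t j G p := by
  rw [Measure.volume_eq_prod, integral_prod _ (by rw [← Measure.volume_eq_prod]; exact integrable_Phi hS hw hG)]
  unfold X.sol H523.sl Phi
  congr 1; ext ξ
  simp only
  rw [integral_const_mul]
  have e1 : ex (x * ξ - t * ξ ^ 2) = ex (-(τ * ξ ^ 2)) * ex (x * ξ - (t - τ) * ξ ^ 2) := by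
    rw [← X.ex_add]; congr 1; ring
  have e2 : (∫ ζ : ℝ, G (WithLp.toLp 2 ![ξ, ζ]) * (((64 * S * ζ) ^ j : ℝ) : ℂ) * ex (y * ζ - τ * ζ ^ 2)) =
      ∫ ζ : ℝ, ex (y * ζ - τ * ζ ^ 2) * ((((64 * S * ζ) ^ j : ℝ) : ℂ) * G (v2 ξ ζ)) := by
    congr 1; ext ζ; unfold v2; ring
  rw [e1, e2]; ring

/-- terms of the exponential series -/
noncomputable def et (z : ℂ) (k : ℕ) : ℂ := z ^ k / k.factorial

noncomputable def er (z : ℝ) (k : ℕ) : ℝ := z ^ k / k.factorial

theorem et_hasSum (z : ℂ) : HasSum (et z) (cexp z) := by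
  have h := NormedSpace.expSeries_div_hasSum_exp (𝔸 := ℂ) z
  rw [← Complex.exp_eq_exp_ℂ] at h
  exact h

theorem summable_norm_et (z : ℂ) : Summable (fun k : ℕ => ‖et z k‖) := by
  have h := NormedSpace.norm_expSeries_div_summable (𝔸 := ℂ) z
  exact h

theorem et_mul_hasSum (z w : ℂ) : HasSum (fun p : ℕ × ℕ => et z p.1 * et w p.2) (cexp z * cexp w) :=
  (et_hasSum z).mul (et_hasSum w) (summable_mul_of_summable_norm (summable_norm_et z) (summable_norm_et w))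

theorem er_hasSum (z : ℝ) : HasSum (er z) (Real.exp z) := by
  have h := NormedSpace.expSeries_div_hasSum_exp (𝔸 := ℝ) z
  rw [← Real.exp_eq_exp_ℝ] at h; exact h

theorem er_nonneg {z : ℝ} (hz : 0 ≤ z) (k : ℕ) : 0 ≤ er z k := by unfold er; positivity

theorem er_mul_hasSum {z w : ℝ} (hz : 0 ≤ z) (hw : 0 ≤ w) : HasSum (fun p : ℕ × ℕ => er z p.1 * er w p.2)
    (Real.exp z * Real.exp w) :=
  (er_hasSum z).mul (er_hasSum w) ((er_hasSum z).summable.mul_of_nonneg (er_hasSum w).summable (er_nonneg hz) (er_nonneg hw))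

theorem norm_et_le {z : ℂ} {r : ℝ} (h : ‖z‖ ≤ r) (k : ℕ) : ‖et z k‖ ≤ er r k := by
  unfold et er
  rw [norm_div, norm_pow, Complex.norm_natCast]
  gcongr

/-- the coefficients -/
noncomputable def kap (S dy dt : ℝ) (p : ℕ × ℕ) : ℂ :=
  et (2 * Real.pi * (dy / (64 * S)) * I) p.1 * et (-(2 * Real.pi * (dt / (64 * S) ^ 2)) * I) p.2

theorem norm_kap_le {S dy dt : ℝ} (hS : 0 < S) (hy : |dy| ≤ S) (ht : |dt| ≤ S ^ 2) (p : ℕ × ℕ) :
    ‖kap S dy dt p‖ ≤ er (2 * Real.pi / 64) p.1 * er (2 * Real.pi / 4096) p.2 := by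
  unfold kap
  have hpi := Real.pi_pos
  have e1 : ‖(2 * Real.pi * (dy / (64 * S)) * I : ℂ)‖ ≤ 2 * Real.pi / 64 := by
    have : (2 * Real.pi * (dy / (64 * S)) * I : ℂ) = ((2 * Real.pi * (dy / (64 * S)) : ℝ) : ℂ) * I := by push_cast; ring
    rw [this, norm_mul, Complex.norm_real, Complex.norm_I, mul_one, Real.norm_eq_abs, abs_mul,
      abs_of_pos (by positivity : (0:ℝ) < 2 * Real.pi), mul_div_assoc]
    rw [abs_div, abs_of_pos (by positivity : (0:ℝ) < 64 * S)]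
    have h1 : |dy| / (64 * S) ≤ 1 / 64 := by
      rw [div_le_div_iff₀ (by positivity) (by norm_num)]; linarith
    calc 2 * Real.pi * (|dy| / (64 * S)) ≤ 2 * Real.pi * (1 / 64) := by gcongr
      _ = _ := by ring
  have e2 : ‖(-(2 * Real.pi * (dt / (64 * S) ^ 2)) * I : ℂ)‖ ≤ 2 * Real.pi / 4096 := by
    have : (-(2 * Real.pi * (dt / (64 * S) ^ 2)) * I : ℂ) = ((-(2 * Real.pi * (dt / (64 * S) ^ 2)) : ℝ) : ℂ) * I := by
      push_cast; ring
    rw [this, norm_mul, Complex.norm_real, Complex.norm_I, mul_one, Real.norm_eq_abs, abs_neg, abs_mul,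
      abs_of_pos (by positivity : (0:ℝ) < 2 * Real.pi), mul_div_assoc]
    rw [abs_div, abs_of_pos (by positivity : (0:ℝ) < (64 * S) ^ 2)]
    have h1 : |dt| / (64 * S) ^ 2 ≤ 1 / 4096 := by
      rw [div_le_div_iff₀ (by positivity) (by norm_num)]; nlinarith
    calc 2 * Real.pi * (|dt| / (64 * S) ^ 2) ≤ 2 * Real.pi * (1 / 4096) := by gcongr
      _ = _ := by ring
  rw [norm_mul]
  exact mul_le_mul (norm_et_le e1 _) (norm_et_le e2 _) (norm_nonneg _) (er_nonneg (by positivity) _)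

theorem et_mul (z v : ℂ) (k : ℕ) : et (z * v) k = et z k * v ^ k := by
  unfold et; rw [mul_pow]; ring

theorem er_mul (z v : ℝ) (k : ℕ) : er (z * v) k = er z k * v ^ k := by
  unfold er; rw [mul_pow]; ring

theorem kap_hasSum {S dy dt ζ : ℝ} (hS : 0 < S) :
    HasSum (fun p : ℕ × ℕ => kap S dy dt p * (((64 * S * ζ) ^ (p.1 + 2 * p.2) : ℝ) : ℂ)) (ex (dy * ζ - dt * ζ ^ 2)) := by
  have hS' : (S : ℂ) ≠ 0 := by exact_mod_cast hS.ne'
  have h := et_mul_hasSum (2 * Real.pi * (dy / (64 * S)) * I * (64 * S * ζ)) (-(2 * Real.pi * (dt / (64 * S) ^ 2)) * I * (64 * S * ζ) ^ 2)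
  have e : cexp (2 * Real.pi * (dy / (64 * S)) * I * (64 * S * ζ)) * cexp (-(2 * Real.pi * (dt / (64 * S) ^ 2)) * I * (64 * S * ζ) ^ 2)
      = ex (dy * ζ - dt * ζ ^ 2) := by
    rw [← Complex.exp_add]
    unfold ex
    congr 1; push_cast; field_simp; ring
  rw [e] at h
  have e2 : (fun p : ℕ × ℕ => kap S dy dt p * (((64 * S * ζ) ^ (p.1 + 2 * p.2) : ℝ) : ℂ)) = fun p : ℕ × ℕ =>
      et (2 * Real.pi * (dy / (64 * S)) * I * (64 * S * ζ)) p.1 * et (-(2 * Real.pi * (dt / (64 * S) ^ 2)) * I * (64 * S * ζ) ^ 2) p.2 := by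
    ext p
    rw [et_mul (2 * Real.pi * (dy / (64 * S)) * I), et_mul (-(2 * Real.pi * (dt / (64 * S) ^ 2)) * I)]
    unfold kap
    push_cast
    rw [pow_add, pow_mul]
    ring
  rw [e2]; exact h

/-- **[TAY]** -/
theorem stTAY : H523.StTAY := by
  refine ⟨1 / 8, by norm_num, fun S w y τ α G x t hS hw hG hy ht hα hαu => ?_⟩
  by_contra hcon
  push Not at hcon
  obtain ⟨b, hb⟩ := hG.bdd
  have hpi := Real.pi_pos
  -- the terms
  set F : ℕ × ℕ → ℝ × ℝ → ℂ := fun q p => kap S (x 1 - y) (t - τ) q * Phi S y τ (x 0) t (q.1 + 2 * q.2) G p with hF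
  have hFi : ∀ q, Integrable (F q) := fun q => (integrable_Phi hS hw hG).const_mul _
  have hGi : Integrable (fun p : ℝ × ℝ => ‖G (v2 p.1 p.2)‖) := by
    have := integrable_Phi (y := y) (τ := τ) (x := x 0) (t := t) (j := 0) hS hw hG
    refine this.norm.congr (Filter.Eventually.of_forall fun p => ?_)
    simp only [Phi, norm_mul, X.norm_ex, one_mul, pow_zero, Complex.ofReal_one, norm_one]
  have hK : Summable (fun q : ℕ × ℕ => er (2 * Real.pi / 64) q.1 * er (2 * Real.pi / 4096) q.2) :=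
    (er_mul_hasSum (by positivity) (by positivity)).summable
  have hFs : Summable fun q => ∫ p, ‖F q p‖ := by
    refine Summable.of_nonneg_of_le (fun q => integral_nonneg fun p => norm_nonneg _) (fun q => ?_)
      (hK.mul_right (∫ p : ℝ × ℝ, ‖G (v2 p.1 p.2)‖))
    calc ∫ p, ‖F q p‖ ≤ ∫ p : ℝ × ℝ, (er (2 * Real.pi / 64) q.1 * er (2 * Real.pi / 4096) q.2) * ‖G (v2 p.1 p.2)‖ := by
          refine integral_mono (hFi q).norm (hGi.const_mul _) fun p => ?_
          simp only [hF]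
          rw [norm_mul]
          refine mul_le_mul (norm_kap_le hS hy ht q) ?_ (norm_nonneg _)
            (mul_nonneg (er_nonneg (by positivity) _) (er_nonneg (by positivity) _))
          refine (norm_Phi_le hS hw hG p).trans ?_
          exact mul_le_of_le_one_left (norm_nonneg _) (pow_le_one₀ (by norm_num) (by norm_num))
      _ = _ := integral_const_mul _ _
  have hmain := hasSum_integral_of_summable_integral_norm hFi hFs
  have e1 : ∫ p, ∑' q, F q p = evo G x t 0 := by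
    rw [evo_eq]
    congr 1; ext p
    have h1 := (kap_hasSum (dy := x 1 - y) (dt := t - τ) (ζ := p.2) hS).mul_right
      (ex (x 0 * p.1 - t * p.1 ^ 2) * (ex (y * p.2 - τ * p.2 ^ 2) * G (v2 p.1 p.2)))
    have h2 : (fun q : ℕ × ℕ => kap S (x 1 - y) (t - τ) q * (((64 * S * p.2) ^ (q.1 + 2 * q.2) : ℝ) : ℂ) *
        (ex (x 0 * p.1 - t * p.1 ^ 2) * (ex (y * p.2 - τ * p.2 ^ 2) * G (v2 p.1 p.2)))) = fun q => F q p := by
      ext q
      simp only [hF, Phi]
      ring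
    rw [h2] at h1
    rw [h1.tsum_eq]
    have h3 : ex (x 1 * p.2 - t * p.2 ^ 2) = ex ((x 1 - y) * p.2 - (t - τ) * p.2 ^ 2) * ex (y * p.2 - τ * p.2 ^ 2) := by
      rw [← X.ex_add]; congr 1; ring
    rw [h3]; ring
  rw [e1] at hmain
  have hterm : ∀ q : ℕ × ℕ, ‖∫ p, F q p‖ ≤ (er (Real.pi / 2) q.1 * er (Real.pi / 8) q.2) * (α / 8) := by
    intro q
    simp only [hF]
    rw [integral_const_mul, norm_mul, ← sol_sl hS hw hG]
    have h1 := hcon (q.1 + 2 * q.2)
    have h2 := norm_kap_le hS hy ht q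
    calc ‖kap S (x 1 - y) (t - τ) q‖ * ‖X.sol (H523.sl S (q.1 + 2 * q.2) y τ G) (x 0) (t - τ)‖
        ≤ (er (2 * Real.pi / 64) q.1 * er (2 * Real.pi / 4096) q.2) * (16 ^ (q.1 + 2 * q.2) * α / 8) := by
          refine mul_le_mul h2 ?_ (norm_nonneg _)
            (mul_nonneg (er_nonneg (by positivity) _) (er_nonneg (by positivity) _))
          have h3 : (8:ℝ) ^ (q.1 + 2 * q.2) ≤ 16 ^ (q.1 + 2 * q.2) := pow_le_pow_left₀ (by norm_num) (by norm_num) _
          nlinarith [mul_le_mul_of_nonneg_right h3 hα.le]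
      _ = _ := by
          have e2 : er (Real.pi / 2) q.1 = er (2 * Real.pi / 64) q.1 * 16 ^ q.1 := by rw [← er_mul]; congr 1; ring
          have e3 : er (Real.pi / 8) q.2 = er (2 * Real.pi / 4096) q.2 * (16 ^ 2) ^ q.2 := by rw [← er_mul]; congr 1; ring
          rw [pow_add, pow_mul, e2, e3]; ring
  have hr := (er_mul_hasSum (z := Real.pi / 2) (w := Real.pi / 8) (by positivity) (by positivity)).mul_right (α / 8)
  have hle : α ≤ Real.exp (Real.pi / 2) * Real.exp (Real.pi / 8) * (α / 8) := by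
    have h9 := tsum_of_norm_bounded hr hterm
    rw [hmain.tsum_eq] at h9
    exact hαu.trans h9
  have hex : Real.exp (Real.pi / 2) * Real.exp (Real.pi / 8) < 8 := by
    rw [← Real.exp_add]
    have h1 : Real.pi / 2 + Real.pi / 8 ≤ 1 + 1 := by nlinarith [Real.pi_lt_d2]
    calc Real.exp (Real.pi / 2 + Real.pi / 8) ≤ Real.exp (1 + 1) := Real.exp_le_exp.2 h1
      _ = Real.exp 1 * Real.exp 1 := Real.exp_add 1 1
      _ < 8 := by nlinarith [Real.exp_one_lt_d9, Real.exp_pos 1]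
  nlinarith

end Vale.Agent.P076.H457
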